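import Vale.Agent.N309X.Main

/-!
Memory-sample tradeoff for noiseless Gaussian regression: the order of the least horizon,
uniformly in the memory.
-/

namespace Vale.Agent.Results.P309.A0MemoryLaw

open MeasureTheory Vale.Agent.N309X

theorem result :
    ∀ d ≥ 16384, ∀ ε : ℝ, 0 < ε → ε ≤ 1 / 2 → ∀ M : ℕ,
      -- (1) lower bound for every memory size
      (∀ N T : ℕ, N ≤ 2 ^ M →
        ∀ (Ω : Type) [MeasurableSpace Ω] (ρ : Measure Ω) [IsProbabilityMeasure ρ] (L : Alg d N Ω),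
        2 / 3 ≤ L.success ρ T ε →
          d * (1 + Real.log (1 / ε) / (1 + M / (d : ℝ) ^ 2)) ≤ 5000 * T) ∧
      -- (2) upper bound, by a deterministic learner
      ((d + 1) * Real.logb 2 (d / ε) + 11 * d ≤ M →
        ∃ (L : Alg d (2 ^ M) Unit) (T : ℕ), (∀ t, L.out t = L.out 0) ∧
          2 / 3 ≤ L.success (Measure.dirac ()) T ε ∧
          T ≤ 5000 * d * (1 + Real.log (1 / ε) /
            (1 + (M - d * Real.logb 2 (1 / ε)) / (d : ℝ) ^ 2)) ∧
          (2 * d * Real.logb 2 (1 / ε) ≤ M →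
            T ≤ 10000 * d * (1 + Real.log (1 / ε) / (1 + M / (d : ℝ) ^ 2)))) := by
  refine fun d hd ε h0 h1 M => ⟨fun N T hN Ω _ ρ _ L => lower_all hd h0 h1 hN L ρ, fun hM => ?_⟩
  obtain ⟨L, T, k1, k2, k3⟩ := upper_all hd h0 h1 hM
  exact ⟨L, T, k1, k2, k3, fun h => k3.trans (half (by omega) h0 h1 h)⟩

end Vale.Agent.Results.P309.A0MemoryLaw
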