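import Vale.Agent.N309.Final

namespace Vale.Agent.Results.P309.A0OneBitWindow

open MeasureTheory ProbabilityTheory Vale.Agent.P309B7 Vale.Agent.P309C9 Vale.Agent.N309 Filter
  Topology

universe u

/-- (1) The best success probability with `N` states is the best measure of a union of `N` caps.
(2) The memory threshold for a finite horizon up to one bit. (3) One bit suffices when the output
may depend on the stopping index. -/
theorem result :
    (∀ (d N : ℕ) (ε : ℝ) (R : Type u) [MeasurableSpace R], 1 ≤ d → 1 ≤ N → 0 ≤ ε →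
      (∀ (L : Rule d N R) (T : ℕ) (Ω : Type u) [MeasurableSpace Ω] (P : Measure Ω) (S : Ω → Sph d)
        (X : ℕ → Ω → Eu d) (U : ℕ → Ω → R), (∀ t, L.out t = L.out 0) → IsShared P S X U →
        ∃ z : Fin N → Sph d, L.success T ε P S X U ≤ cover z ε) ∧
      ∀ z : Fin N → Sph d, ∃ L : Rule d N R, (∀ t, L.out t = L.out 0) ∧
        ∀ (Ω : Type u) [MeasurableSpace Ω] (P : Measure Ω) (S : Ω → Sph d)
          (X : ℕ → Ω → Eu d) (U : ℕ → Ω → R), IsShared P S X U →
          Tendsto (fun T => L.success T ε P S X U) atTop (𝓝 (cover z ε))) ∧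
    (∀ (d M : ℕ) (ε : ℝ) (e : Sph d), 1 ≤ d → 0 ≤ ε →
      (2 ^ M * cover (fun _ : Fin 1 => e) ε < 2 / 3 → leastT d M ε = ⊤) ∧
      (ENNReal.ofReal (Real.log 3) ≤ 2 ^ M * cover (fun _ : Fin 1 => e) ε → leastT d M ε < ⊤) ∧
      (2 / 3 ≤ 2 ^ M * cover (fun _ : Fin 1 => e) ε → leastT d (M + 1) ε < ⊤)) ∧
    ∀ (d : ℕ) (ε : ℝ) (R : Type u) [MeasurableSpace R], 1 ≤ d → 0 < ε →
      ∃ (L : Rule d 2 R) (T : ℕ), ∀ (Ω : Type u) [MeasurableSpace Ω] (P : Measure Ω)
        (S : Ω → Sph d) (X : ℕ → Ω → Eu d) (U : ℕ → Ω → R), IsShared P S X U →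
        2 / 3 ≤ L.success T ε P S X U :=
  ⟨fun _ _ ε R _ hd hN h0 => ⟨fun L T _ _ _ _ _ _ hL hE => upper hE L hL T ε,
      fun z => attain hd hN z h0 R⟩,
    fun _ _ _ e hd h0 => thr e hd h0,
    fun _ _ R _ hd h0 => one_bit hd h0 R⟩

end Vale.Agent.Results.P309.A0OneBitWindow
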